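import Vale.Agent.P011IR.IF

/-!
P011I (helper82): the root curves of a split linear package.
-/

set_option autoImplicit false
set_option linter.all false

namespace Vale.Agent.P011IC3

open Matrix Vale.Agent.P183CH Vale.Agent.P092AG Vale.Agent.P092GP Vale.Agent.P011IR
  Vale.Agent.P092GP.LD

variable {k G : Type} [Field k] [Group G] {L : LD k G}

theorem coeff_cj {n : ℕ} (A B : Mt n k) (P : Mt n (Polynomial k)) (m : ℕ) (a b : Fin n) :
    ((A.map Polynomial.C * P * B.map Polynomial.C) a b).coeff m =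
      (A * (P.map fun p => p.coeff m) * B) a b := by
  simp only [mul_apply, map_apply, Polynomial.finset_sum_coeff, Polynomial.coeff_mul_C,
    Polynomial.coeff_C_mul, Finset.sum_mul]

/-- transport along a representative of an element of the Weyl group -/
theorem cv_conj {γ : L.R.Q} {P : Mt L.n (Polynomial k)} {x : k → G} (h : Cv L γ P x) {n : G}
    {w : L.R.Aut} (a : L.Rep n w) : Cv L (w γ)
      ((L.ρ n).map Polynomial.C * P * (L.ρ n⁻¹).map Polynomial.C) fun t => n * x t * n⁻¹ where
  ev t := by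
    have e : ∀ A : Mt L.n k, (A.map Polynomial.C).map (Polynomial.evalRingHom t) = A := fun A =>
      Matrix.ext fun _ _ => Polynomial.eval_C
    rw [map_mul, map_mul, h.ev]
    exact (by rw [Matrix.map_mul, Matrix.map_mul, e, e]; rfl :
      Matrix.map _ (Polynomial.evalRingHom t) = _).symm
  add s t := by rw [h.add]; group
  mem g := ⟨fun c => by
    have := a.inv.conj_X c
    rw [RS.inv_app] at this
    obtain ⟨t, e⟩ := (h.mem _).1 this
    exact ⟨t, by rw [← e]; group⟩, fun ⟨t, e⟩ => e ▸ a.conj_X ((h.mem _).2 ⟨t, rfl⟩)⟩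
  inj t e := h.inj t (by simpa using e)
  deg i j m c := by
    rw [coeff_cj] at c
    have := sup_iff.1 (Ty.conj (f := w.toLinearMap.toAddMonoidHom) (D := {(L.N * m) • γ})
      (D' := {(L.N * m) • w γ}) a a.inv (RS.app_inv w)
      (sup_iff.2 fun i j c => sub_eq_iff_eq_add'.2 (h.deg i j m c))
      (by rintro _ rfl; exact map_nsmul w _ _)) i j c
    exact sub_eq_iff_eq_add'.1 this
  one := by
    by_contra c
    push Not at c
    obtain ⟨i, j, e⟩ := h.one
    have h1 : L.ρ n * (P.map fun p => p.coeff 1) * L.ρ n⁻¹ = 0 :=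
      Matrix.ext fun i j => (coeff_cj _ _ _ _ _ _).symm.trans (c i j)
    have h2 := congrArg (fun z => L.ρ n⁻¹ * z * L.ρ n) h1
    simp only [← mul_assoc, rho_inv_mul, one_mul, mul_zero, zero_mul] at h2
    rw [mul_assoc, rho_inv_mul, mul_one] at h2
    exact e (congrFun₂ h2 i j)

theorem deg_single {σ Q : Type} [Fintype σ] [DecidableEq σ] [AddCommMonoid Q] {w : σ → Q} {d : Q}
    {q : MvPolynomial σ k} (h : q.IsWeightedHomogeneous w d) (j : σ) (m : ℕ)
    (c : (MvPolynomial.aeval (Pi.single j Polynomial.X : σ → Polynomial k) q).coeff m ≠ 0) :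
    d = m • w j := by
  rw [q.as_sum, map_sum, Polynomial.finset_sum_coeff] at c
  obtain ⟨e, he, c⟩ := Finset.exists_ne_zero_of_sum_ne_zero c
  rw [MvPolynomial.aeval_monomial, Finsupp.prod_fintype _ _ fun _ => pow_zero _] at c
  have h1 : ∀ i, i ≠ j → e i = 0 := fun i hi => by_contra fun f => c (by
    rw [Finset.prod_eq_zero (Finset.mem_univ i) (by rw [Pi.single_eq_of_ne hi, zero_pow f]),
      mul_zero, Polynomial.coeff_zero])
  rw [Finset.prod_eq_single j (fun i _ hi => by rw [h1 i hi, pow_zero]) (by simp),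
    Pi.single_eq_same, Polynomial.algebraMap_eq, Polynomial.coeff_C_mul_X_pow] at c
  rw [← h (MvPolynomial.mem_support_iff.1 he), Finsupp.weight_apply,
    Finsupp.sum_fintype _ _ (fun _ => by simp),
    Finset.sum_eq_single j (fun i _ hi => by rw [h1 i hi, zero_smul]) (by simp),
    show m = e j from by_contra fun f => c (if_neg f)]

theorem cv_pos [Infinite k] (h : Sp L) (i : Fin L.R.r) : ∃ P x, Cv L (L.R.α i) P x := by
  have H := h.ok
  obtain ⟨j, hj⟩ := H.dg_simple i
  have hN : (L.N : ℤ) ≠ 0 := Nat.cast_ne_zero.2 H.npos.ne'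
  have h1 : ∀ j', L.dg j' ∈ dRay (L.R.α i) → j' = j := by
    rintro j' ⟨c, hc, e⟩
    obtain ⟨γ, a, b⟩ := h.red j'
    have e1 : γ = γ i • L.R.α i := funext fun l => by
      by_cases f : l = i
      · simp [f, RS.α]
      · simpa [RS.α, f, H.npos.ne'] using congrFun (b.symm.trans e) l
    have e2 : (L.N : ℤ) * γ i = c := by simpa [RS.α] using congrFun (b.symm.trans e) i
    rcases H.root.red i _ (e1 ▸ a) with f | f
    · exact h.inj (by rw [b, e1, f, one_smul, hj])
    · rw [f] at e2; omega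
  have h2 : ∀ t, L.x (Pi.single j t) ∈ UD L.wt L.ρ (dRay (L.N • L.R.α i)) := fun t =>
    H.single_mem_UD (mem_dRay.2 ⟨1, one_pos, by rw [hj, one_smul]⟩) t
  have h3 : ∀ t, L.ρ (L.x (Pi.single j t)) = (L.e.map (MvPolynomial.aeval
      (Pi.single j Polynomial.X : _ → Polynomial k))).map (Polynomial.eval t) := fun t => by
    rw [H.x_eq]
    ext a b
    refine Eq.trans ?_ (MvPolynomial.comp_aeval_apply _ (Polynomial.aeval t) (L.e a b)).symm
    refine congrArg (fun z => MvPolynomial.eval z (L.e a b)) (funext fun l => ?_)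
    by_cases f : l = j <;> simp [f]
  refine ⟨_, fun t => L.x (Pi.single j t), h3, fun s t => ?_, fun g => ⟨fun c => ⟨L.cf g j, ?_⟩,
    fun ⟨t, e⟩ => e ▸ H.single_mem_UD (mem_dRay.2 ⟨_, H.npos, hj⟩) t⟩,
    fun t e => by_contra fun f => H.single_ne_one j f e, fun a b m c => ?_, ?_⟩
  · refine H.eq_of_cf (H.x_mem _) (mul_mem (H.x_mem _) (H.x_mem _)) (funext fun l => ?_)
    rw [H.cf_mul (h2 s) (h2 t), H.cf_x, H.cf_x, H.cf_x, Pi.single_add, Pi.add_apply]
    rintro _ ⟨c, hc, rfl⟩ _ ⟨d, hd, rfl⟩ e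
    rw [← add_nsmul, ← mul_nsmul'] at e
    rw [h1 l ⟨_, Nat.mul_pos (Nat.add_pos_left hc d) H.npos, e.symm⟩, hj] at e
    have : ((c : ℤ) + d) * L.N = 1 * L.N := by simpa [RS.α] using congrFun e i
    have := mul_right_cancel₀ hN this
    omega
  · refine (H.x_cf (X_le_Up (H.α_pos i) c)).symm.trans (congrArg _ (funext fun l => ?_))
    by_cases f : l = j
    · rw [f, Pi.single_eq_same]
    · rw [Pi.single_eq_of_ne f]
      exact H.cf_eq_zero c fun e => f (h1 l e)
  · rw [← sub_eq_iff_eq_add', deg_single (H.e_hom a b) j m c, hj, mul_nsmul]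
  · by_contra c
    push Not at c
    have e : ∑ a, ∑ b, Polynomial.C (L.l j a b) * MvPolynomial.aeval
        (Pi.single j Polynomial.X : _ → Polynomial k) (L.e a b) = Polynomial.X :=
      Polynomial.funext fun t => by
        have := H.co_x (Pi.single j t) j
        rw [h3, Pi.single_eq_same] at this
        simpa [Polynomial.eval_finset_sum, co] using this
    have := congrArg (Polynomial.coeff · 1) e
    simp only [Polynomial.finset_sum_coeff, Polynomial.coeff_C_mul, Polynomial.coeff_X_one] at this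
    exact zero_ne_one ((Finset.sum_eq_zero fun a _ => Finset.sum_eq_zero fun b _ =>
      mul_eq_zero_of_right _ (c a b)).symm.trans this)

theorem cur : CUR := fun k G _ _ _ L h i =>
  let ⟨P, x, c⟩ := cv_pos h i
  ⟨⟨P, x, c⟩, _, _, h.ok.root.sE_α i ▸ cv_conj c (h.ok.rep_nn i)⟩

end Vale.Agent.P011IC3
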